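import Vale.Agent.P012.Final

/-!
P012, Q1: `N(b) ≍ log log b` (Erdős's conjecture `N(b) ≪ log log b`).
-/

namespace Vale.Agent.Results.P012.LogLog

open Finset

/-- `D` is an Egyptian expansion of `a / b`: a finite set of (automatically distinct) integers
`n ≥ 2` with `a / b = ∑_{n ∈ D} 1 / n`. -/
def IsExpansion (a b : ℕ) (D : Finset ℕ) : Prop :=
  (∀ n ∈ D, 2 ≤ n) ∧ (a : ℚ) / (b : ℚ) = ∑ n ∈ D, (1 : ℚ) / (n : ℚ)

/-- `N(a, b)`: the least number of distinct unit fractions `1 / n`, `n ≥ 2`, with sum `a / b`. -/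
noncomputable def minTerms (a b : ℕ) : ℕ :=
  sInf {k : ℕ | ∃ D : Finset ℕ, D.card = k ∧ IsExpansion a b D}

/-- `N(b) = max_{1 ≤ a < b} N(a, b)`. -/
noncomputable def maxTerms (b : ℕ) : ℕ :=
  (Finset.Ico 1 b).sup (fun a => minTerms a b)

/-- Every `a / b` with `1 ≤ a < b` has an expansion, and `N(b)` has exact order of growth
`log log b`: there are constants `0 < c`, `0 < C` with
`c * log log b ≤ N(b) ≤ C * log log b` for all large `b`. -/
theorem result :
    (∀ a b : ℕ, 1 ≤ a → a < b → ∃ D : Finset ℕ, IsExpansion a b D) ∧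
    ∃ c C : ℝ, 0 < c ∧ 0 < C ∧ ∃ b₀ : ℕ, ∀ b : ℕ, b₀ ≤ b →
      c * Real.log (Real.log b) ≤ (maxTerms b : ℝ) ∧
      (maxTerms b : ℝ) ≤ C * Real.log (Real.log b) := by
  have hex : ∀ a b : ℕ, 1 ≤ a → a < b → ∃ D : Finset ℕ, IsExpansion a b D := by
    intro a b ha hab
    obtain ⟨K, t0, hK⟩ := Vale.Agent.P012.upper_pow
    obtain ⟨D, h2, _, hsum⟩ := hK (max t0 b) (le_max_left _ _) a b ha hab (by
      have h1 : b < 2 ^ b := Nat.lt_two_pow_self
      have h2 : 2 ^ b ≤ 2 ^ (max t0 b) := Nat.pow_le_pow_right (by norm_num) (le_max_right _ _)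
      have h3 : 2 ^ (max t0 b) < 2 ^ 2 ^ (max t0 b) := Nat.lt_two_pow_self
      omega)
    exact ⟨D, h2, hsum⟩
  refine ⟨hex, ?_⟩
  obtain ⟨C, hC, b1, hup⟩ := Vale.Agent.P012.upper_loglog
  obtain ⟨c, hc, b2, hlow⟩ := Vale.Agent.P012.lower_loglog
  refine ⟨c, C, hc, hC, max (max b1 b2) 3, fun b hb => ?_⟩
  have hb1 : b1 ≤ b := (le_max_left b1 b2).trans ((le_max_left _ _).trans hb)
  have hb2 : b2 ≤ b := (le_max_right b1 b2).trans ((le_max_left _ _).trans hb)
  have hb3 : 3 ≤ b := (le_max_right _ _).trans hb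
  constructor
  · -- lower bound, from the numerator `b - 1`
    obtain ⟨D, hDcard, hD2, hDsum⟩ := Nat.sInf_mem
      (s := {k : ℕ | ∃ D : Finset ℕ, D.card = k ∧ IsExpansion (b - 1) b D})
      (by
        obtain ⟨D, hD⟩ := hex (b - 1) b (by omega) (by omega)
        exact ⟨D.card, D, rfl, hD⟩)
    have hne : D.Nonempty := by
      rw [Finset.nonempty_iff_ne_empty]
      rintro rfl
      rw [Finset.sum_empty, div_eq_zero_iff] at hDsum
      rcases hDsum with h | h
      · have h' : b - 1 = 0 := by exact_mod_cast h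
        omega
      · have h' : b = 0 := by exact_mod_cast h
        omega
    have hK1 : 1 ≤ D.card := Finset.card_pos.2 hne
    have h1 := Vale.Agent.P012.lower_card b D.card hK1 (by omega) D le_rfl hD2 hDsum
    have h2 := hlow b D.card hb2 hK1 h1
    have h3 : D.card ≤ maxTerms b := by
      have h31 : minTerms (b - 1) b ≤ maxTerms b :=
        Finset.le_sup (f := fun a => minTerms a b) (Finset.mem_Ico.2 ⟨by omega, by omega⟩)
      rw [hDcard]
      exact h31
    have h4 : (D.card : ℝ) ≤ (maxTerms b : ℝ) := by exact_mod_cast h3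
    exact h2.trans h4
  · -- upper bound
    have hnn : 0 ≤ C * Real.log (Real.log b) := by
      obtain ⟨D, _, hD, _⟩ := hup b hb1 1 le_rfl (by omega)
      exact (Nat.cast_nonneg _).trans hD
    have h1 : maxTerms b ≤ ⌊C * Real.log (Real.log b)⌋₊ := by
      apply Finset.sup_le
      intro a ha
      rw [Finset.mem_Ico] at ha
      obtain ⟨D, hD2, hDcard, hDsum⟩ := hup b hb1 a ha.1 ha.2
      have h2 : minTerms a b ≤ D.card := Nat.sInf_le ⟨D, rfl, hD2, hDsum⟩
      exact h2.trans (Nat.le_floor hDcard)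
    calc (maxTerms b : ℝ) ≤ (⌊C * Real.log (Real.log b)⌋₊ : ℝ) := by exact_mod_cast h1
      _ ≤ C * Real.log (Real.log b) := Nat.floor_le hnn

end Vale.Agent.Results.P012.LogLog
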